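import Crest.Agent.N207.U.Met
import Crest.Agent.N207.AI.Nat

/-!
# Row 207 (helper58): `PB` under compositions, inverse maps, pull-backs and radial cut-offs
-/

set_option autoImplicit false
set_option linter.unusedSectionVars false

open Set Filter Topology
open scoped ContDiff BigOperators
open Crest.GeometryTopology.CoordMetric

noncomputable section

namespace Crest.Agent.N207.U

variable {n : ℕ} {ι : Type*} {x : ι → En n} {s s' φ ψ : ι → ℝ} {m : ℕ} {f g : ι → En n → ℝ}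

/-- change to a smaller scale -/
theorem PB.scale (h : PB x s m φ f) (hs : ∀ i, 0 < s i) {K : ℝ} (hK : ∀ i, |s' i| ≤ K * s i) :
    PB x s' m φ f := by
  induction m generalizing f with
  | zero => exact h
  | succ m ih =>
    refine ⟨h.1, fun j => ?_⟩
    have h1 : PB x s' m (fun _ => 1) fun i _ => s' i / s i :=
      (PB.cst fun i => s' i / s i).wt (abs_nonneg K) fun i => by
        rw [abs_div, abs_of_pos (hs i), div_le_iff₀ (hs i), mul_one]
        exact (hK i).trans (mul_le_mul_of_nonneg_right (le_abs_self K) (hs i).le)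
    exact (h1.bmul (ih (h.2 j))).congr' fun i y => by
      rw [← mul_assoc, div_mul_cancel₀ _ (hs i).ne']

theorem PB.det {κ : Type*} [Fintype κ] [DecidableEq κ] {A : ι → En n → Matrix κ κ ℝ}
    (h : ∀ a b, PB x s m (fun _ => 1) fun i y => A i y a b) :
    PB x s m (fun _ => 1) fun i y => (A i y).det := by
  simp only [Matrix.det_apply']
  exact PB.sum _ fun σ _ => (PB.prod _ fun a _ => h _ _).cmul _

theorem PB.matInv {κ : Type*} [Fintype κ] [DecidableEq κ] {A : ι → En n → Matrix κ κ ℝ}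
    (h : ∀ a b, PB x s m (fun _ => 1) fun i y => A i y a b) (hu : ∀ i, IsUnit (A i (x i)).det)
    {C : ℝ} (hC : ∀ i a b, |(A i (x i))⁻¹ a b| ≤ C) (a b : κ) :
    PB x s m (fun _ => 1) fun i y => (A i y)⁻¹ a b := by
  set D : ℝ := |(Fintype.card κ).factorial • C ^ Fintype.card κ| + 1 with hD
  have hD0 : 0 < D := by positivity
  have h1 : PB x s m (fun _ => 1) fun i y => ((A i y).det)⁻¹ := by
    refine (PB.det h).inv (c := D⁻¹) (inv_pos.2 hD0) fun i => ?_
    have h2 : |((A i (x i))⁻¹).det| ≤ D :=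
      ((Matrix.det_le (abv := AbsoluteValue.abs) (hC i)).trans (le_abs_self _)).trans (by
        rw [hD]; linarith)
    have h3 : |(A i (x i)).det| * |((A i (x i))⁻¹).det| = 1 := by
      rw [← abs_mul, mul_comm, Matrix.det_nonsing_inv_mul_det _ (hu i), abs_one]
    rw [inv_le_iff_one_le_mul₀ hD0, ← h3]
    exact mul_le_mul_of_nonneg_left h2 (abs_nonneg _)
  have h4 : PB x s m (fun _ => 1) fun i y => (A i y).adjugate a b := by
    simp only [Matrix.adjugate_apply]
    refine PB.det fun c d => ?_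
    by_cases e : c = b
    · subst e
      simpa using PB.const _
    · simpa [Matrix.updateRow_ne e] using h c d
  exact (h1.bmul h4).congr' fun i y => by
    rw [Matrix.inv_def, Ring.inverse_eq_inv', Matrix.smul_apply, smul_eq_mul]

theorem PB.matInv_sub {κ : Type*} [Fintype κ] [DecidableEq κ] {A : ι → En n → Matrix κ κ ℝ}
    (h : ∀ a b, PB x s m φ fun i y => A i y a b - (1 : Matrix κ κ ℝ) a b)
    (h1 : ∀ a b, PB x s m (fun _ => 1) fun i y => (A i y)⁻¹ a b)
    (hu : ∀ i, ∀ᶠ y in 𝓝 (x i), IsUnit (A i y).det) (a b : κ) :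
    PB x s m φ fun i y => (A i y)⁻¹ a b - (1 : Matrix κ κ ℝ) a b := by
  refine ((PB.sum Finset.univ fun c _ => (h1 a c).bmul (h c b)).neg).congr fun i => ?_
  filter_upwards [hu i] with y hy
  have e : (A i y)⁻¹ - 1 = -((A i y)⁻¹ * (A i y - 1)) := by
    rw [Matrix.mul_sub, Matrix.nonsing_inv_mul _ hy, Matrix.mul_one, neg_sub]
  have := congrFun (congrFun e a) b
  simpa [Matrix.mul_apply] using this

theorem PB.of_sub {κ : Type*} [DecidableEq κ] {A : ι → En n → Matrix κ κ ℝ} {a b : κ}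
    (h : PB x s m φ fun i y => A i y a b - (1 : Matrix κ κ ℝ) a b) {K : ℝ} (hK : ∀ i, φ i ≤ K) :
    PB x s m (fun _ => 1) fun i y => A i y a b :=
  ((h.wt (abs_nonneg K) fun i => by simpa using (hK i).trans (le_abs_self K)).add
    (PB.const ((1 : Matrix κ κ ℝ) a b))).congr' fun _ _ => by ring

/-! ### compositions -/

/-- the Jacobian matrix -/
def jc (Φ : En n → En n) (y : En n) : Matrix (Fin n) (Fin n) ℝ :=
  Matrix.of fun a j => fderiv ℝ Φ y (EuclideanSpace.single j 1) a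

theorem clm_eq_sum (L : En n →L[ℝ] ℝ) (v : En n) :
    L v = ∑ a, L (EuclideanSpace.single a 1) * v a := by
  conv_lhs => rw [show v = ∑ j, v j • EuclideanSpace.single j (1 : ℝ) from by
    ext k; simp [Pi.single_apply]]
  simp [map_sum, mul_comm]

theorem pd_comp {f : En n → ℝ} {Φ : En n → En n} {y : En n} (hf : DifferentiableAt ℝ f (Φ y))
    (hΦ : DifferentiableAt ℝ Φ y) (j : Fin n) :
    pderiv j (fun z => f (Φ z)) y = ∑ a, pderiv a f (Φ y) * jc Φ y a j := by
  have h : fderiv ℝ (fun z => f (Φ z)) y = (fderiv ℝ f (Φ y)).comp (fderiv ℝ Φ y) :=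
    fderiv_comp y hf hΦ
  rw [pderiv, h, ContinuousLinearMap.comp_apply, clm_eq_sum]
  rfl

theorem jc_eq_pd {Φ : En n → En n} {y : En n} (hΦ : DifferentiableAt ℝ Φ y) (a j : Fin n) :
    jc Φ y a j = pderiv j (fun z => Φ z a) y := by
  have h := ((EuclideanSpace.proj a : En n →L[ℝ] ℝ).hasFDerivAt.comp y hΦ.hasFDerivAt).fderiv
  have e : (fun z => Φ z a) = (EuclideanSpace.proj a : En n →L[ℝ] ℝ) ∘ Φ := rfl
  rw [pderiv, e, h]
  rfl

theorem jc_comp {Ψ Φ : En n → En n} {y : En n} (hΨ : DifferentiableAt ℝ Ψ (Φ y))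
    (hΦ : DifferentiableAt ℝ Φ y) : jc (fun z => Ψ (Φ z)) y = jc Ψ (Φ y) * jc Φ y := by
  ext a j
  have h : fderiv ℝ (fun z => Ψ (Φ z)) y = (fderiv ℝ Ψ (Φ y)).comp (fderiv ℝ Φ y) :=
    fderiv_comp y hΨ hΦ
  have h2 := clm_eq_sum ((EuclideanSpace.proj a : En n →L[ℝ] ℝ).comp (fderiv ℝ Ψ (Φ y)))
    (fderiv ℝ Φ y (EuclideanSpace.single j 1))
  rw [Matrix.mul_apply, jc, Matrix.of_apply, h]
  exact h2

theorem jc_congr {Ψ Φ : En n → En n} {y : En n} (h : Ψ =ᶠ[𝓝 y] Φ) : jc Ψ y = jc Φ y := by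
  simp only [jc, h.fderiv_eq]

theorem jc_id (y : En n) : jc (fun z => z) y = 1 := by
  ext a j
  simp [jc, Matrix.one_apply]

theorem ev_diff' {Y : Type*} [NormedAddCommGroup Y] [NormedSpace ℝ Y] {f : En n → Y} {x : En n}
    (h : ContDiffAt ℝ ∞ f x) : ∀ᶠ y in 𝓝 x, DifferentiableAt ℝ f y :=
  ((h.of_le (kle 1)).eventually (by simp)).mono fun _ hy => hy.differentiableAt (by simp)

variable {Φ Ψ : ι → En n → En n}

theorem PB.comp (hΦ : ∀ i, ContDiffAt ℝ ∞ (Φ i) (x i))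
    (hJ : ∀ k < m, ∀ a j, PB x s k (fun _ => 1) fun i y => jc (Φ i) y a j)
    (h : PB (fun i => Φ i (x i)) s m φ f) : PB x s m φ fun i y => f i (Φ i y) := by
  have h0 : ∀ {f : ι → En n → ℝ}, PB0 (fun i => Φ i (x i)) φ f →
      PB0 x φ fun i y => f i (Φ i y) := fun h => ⟨fun i => (h.1 i).comp (x i) (hΦ i), h.2⟩
  induction m generalizing f with
  | zero => exact h0 h
  | succ m ih =>
    refine ⟨h0 h.1, fun j => (PB.sum Finset.univ fun a _ =>
      (ih (fun k hk => hJ k (by omega)) (h.2 a)).mulb (hJ m (by omega) a j)).congr fun i => ?_⟩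
    filter_upwards [ev_diff' (hΦ i), (hΦ i).continuousAt.eventually (ev_diff (h.sm i))]
      with y h1 h2
    rw [pd_comp h2 h1, Finset.mul_sum]
    exact Finset.sum_congr rfl fun a _ => by ring

theorem jc_mul_ev {Φ Ψ : En n → En n} {x : En n} (hΦ : ContDiffAt ℝ ∞ Φ x)
    (hΨ : ContDiffAt ℝ ∞ Ψ (Φ x)) (e : ∀ᶠ z in 𝓝 x, Ψ (Φ z) = z) :
    ∀ᶠ z in 𝓝 x, jc Ψ (Φ z) * jc Φ z = 1 := by
  filter_upwards [ev_diff' hΦ, hΦ.continuousAt.eventually (ev_diff' hΨ), e.eventually_nhds]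
    with y h1 h2 h3
  rw [← jc_comp h2 h1, jc_congr h3, jc_id]

/-- the Jacobian of a right inverse -/
theorem PB.jc_inv (hΦ : ∀ i, ContDiffAt ℝ ∞ (Φ i) (x i))
    (hΨ : ∀ i, ContDiffAt ℝ ∞ (Ψ i) (Φ i (x i))) (e : ∀ i, ∀ᶠ z in 𝓝 (x i), Ψ i (Φ i z) = z)
    (h : ∀ a j, PB (fun i => Φ i (x i)) s m (fun _ => 1) fun i y => (jc (Ψ i) y)⁻¹ a j) :
    ∀ k ≤ m, ∀ a j, PB x s k (fun _ => 1) fun i y => jc (Φ i) y a j := by
  intro k
  induction k using Nat.strong_induction_on with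
  | _ k ih =>
    intro hk a j
    refine (PB.comp hΦ (fun l hl => ih l hl (by omega)) ((h a j).of_le hk)).congr fun i => ?_
    filter_upwards [jc_mul_ev (hΦ i) (hΨ i) (e i)] with y hy
    rw [Matrix.inv_eq_right_inv hy]

/-- the Jacobian of a right inverse of a map close to the identity -/
theorem PB.jc_inv_sub (hΦ : ∀ i, ContDiffAt ℝ ∞ (Φ i) (x i))
    (hΨ : ∀ i, ContDiffAt ℝ ∞ (Ψ i) (Φ i (x i))) (e : ∀ i, ∀ᶠ z in 𝓝 (x i), Ψ i (Φ i z) = z)
    {K ε : ℝ} (hK : ∀ i, φ i ≤ K) (hε : n * ε ≤ 1 / 2)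
    (h0 : ∀ i a j, |jc (Ψ i) (Φ i (x i)) a j - (1 : Matrix (Fin n) (Fin n) ℝ) a j| ≤ ε)
    (h : ∀ a j, PB (fun i => Φ i (x i)) s m φ
      fun i y => jc (Ψ i) y a j - (1 : Matrix (Fin n) (Fin n) ℝ) a j) (a j : Fin n) :
    PB x s m φ fun i y => jc (Φ i) y a j - (1 : Matrix (Fin n) (Fin n) ℝ) a j := by
  have hu : ∀ i, IsUnit (jc (Ψ i) (Φ i (x i))).det := fun i =>
    Matrix.isUnit_det_of_right_inverse (jc_mul_ev (hΦ i) (hΨ i) (e i)).self_of_nhds
  have h1 := fun a j => (h a j).of_sub hK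
  have h2 := PB.matInv h1 hu fun i => abs_inv_le (hu i) hε (h0 i)
  have h3 := PB.matInv_sub h h2 (fun i => ((PB.det h1).sm i).continuousAt.eventually_ne
    (hu i).ne_zero |>.mono fun y hy => Ne.isUnit hy) a j
  refine (PB.comp hΦ (fun k hk => PB.jc_inv hΦ hΨ e h2 k hk.le) h3).congr fun i => ?_
  filter_upwards [jc_mul_ev (hΦ i) (hΨ i) (e i)] with y hy
  rw [Matrix.inv_eq_right_inv hy]

theorem pull_two (Φ : En n → En n) (G : MetricField n) (y : En n) (a b : Fin n) :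
    pullT Φ (matT G) y ![a, b] = ∑ p, ∑ q, jc Φ y p a * jc Φ y q b * G (Φ y) p q := by
  rw [pullT, AI.evT_two]
  rfl

/-- the pull-back of a two-tensor -/
theorem PB.pull2 {G : ι → MetricField n} (hΦ : ∀ i, ContDiffAt ℝ ∞ (Φ i) (x i))
    (hJ : ∀ a j, PB x s m (fun _ => 1) fun i y => jc (Φ i) y a j)
    (hG : ∀ a b, PB (fun i => Φ i (x i)) s m φ fun i y => G i y a b) (a b : Fin n) :
    PB x s m φ fun i y => pullT (Φ i) (matT (G i)) y ![a, b] :=
  (PB.sum Finset.univ fun p _ => PB.sum Finset.univ fun q _ => ((hJ p a).bmul (hJ q b)).bmul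
    (PB.comp hΦ (fun _ hk a j => (hJ a j).of_le hk.le) (hG p q))).congr'
    fun _ _ => pull_two _ _ _ _ _

/-- the pull-back of a metric close to `δ` by a map close to the identity -/
theorem PB.pull {G : ι → MetricField n} (hΦ : ∀ i, ContDiffAt ℝ ∞ (Φ i) (x i)) {K : ℝ}
    (hK : ∀ i, φ i ≤ K)
    (hJ : ∀ a j, PB x s m φ fun i y => jc (Φ i) y a j - (1 : Matrix (Fin n) (Fin n) ℝ) a j)
    (hG : ∀ a b, PB (fun i => Φ i (x i)) s m φ
      fun i y => G i y a b - (1 : Matrix (Fin n) (Fin n) ℝ) a b) (a b : Fin n) :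
    PB x s m φ fun i y =>
      pullT (Φ i) (matT (G i)) y ![a, b] - (1 : Matrix (Fin n) (Fin n) ℝ) a b := by
  have h1 := fun a j => (hJ a j).of_sub hK
  refine (((PB.pull2 (G := fun i y => G i y - 1) hΦ h1 hG a b).add
    (PB.sum Finset.univ fun p _ => (hJ p a).mulb (h1 p b))).add (hJ a b)).congr' fun i y => ?_
  simp only [pull_two, Matrix.sub_apply, mul_sub, sub_mul, Finset.sum_sub_distrib,
    Matrix.one_apply, mul_ite, ite_mul, mul_one, mul_zero, one_mul, zero_mul, Finset.sum_ite_eq,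
    Finset.sum_ite_eq', Finset.mem_univ, if_true]
  ring

/-! ### radial cut-offs -/

/-- smooth with bounded derivatives of all orders -/
def BS (h : ℝ → ℝ) : Prop := ContDiff ℝ ∞ h ∧ ∀ k, ∃ C, ∀ t, |deriv^[k] h t| ≤ C

theorem BS.der {h : ℝ → ℝ} (hh : BS h) : BS (deriv h) :=
  ⟨(contDiff_infty_iff_deriv.1 hh.1).2, fun k => hh.2 (k + 1)⟩

theorem BS.of_supp {h : ℝ → ℝ} (hh : ContDiff ℝ ∞ h) {C : ℝ} (hC : ∀ t, |h t| ≤ C)
    (hs : HasCompactSupport (deriv h)) : BS h := by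
  refine ⟨hh, fun k => ?_⟩
  cases k with
  | zero => exact ⟨C, hC⟩
  | succ k =>
    have : ContDiff ℝ ∞ (deriv^[k + 1] h) ∧ HasCompactSupport (deriv^[k + 1] h) := by
      induction k with
      | zero => exact ⟨(contDiff_infty_iff_deriv.1 hh).2, hs⟩
      | succ k ih =>
        rw [Function.iterate_succ_apply']
        exact ⟨(contDiff_infty_iff_deriv.1 ih.1).2, ih.2.deriv⟩
    exact this.1.continuous.bounded_above_of_compact_support this.2

theorem bs_trans (a b : ℝ) (hab : a < b) :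
    BS fun t => Real.smoothTransition ((t - a) / (b - a)) := by
  have hb : 0 < b - a := sub_pos.2 hab
  refine BS.of_supp (Real.smoothTransition.contDiff.comp ((contDiff_id.sub contDiff_const).div_const _))
    (C := 1) (fun t => by
      rw [abs_of_nonneg (Real.smoothTransition.nonneg _)]; exact Real.smoothTransition.le_one _)
    (HasCompactSupport.intro (isCompact_Icc (a := a) (b := b)) fun t ht => ?_)
  rcases not_and_or.1 ht with h | h
  · have : (fun t => Real.smoothTransition ((t - a) / (b - a))) =ᶠ[𝓝 t] fun _ => 0 := by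
      filter_upwards [Iio_mem_nhds (not_le.1 h)] with r hr
      exact Real.smoothTransition.zero_of_nonpos
        (div_nonpos_of_nonpos_of_nonneg (sub_nonpos.2 (le_of_lt hr)) hb.le)
    rw [this.deriv_eq, deriv_const]
  · have : (fun t => Real.smoothTransition ((t - a) / (b - a))) =ᶠ[𝓝 t] fun _ => 1 := by
      filter_upwards [Ioi_mem_nhds (not_le.1 h)] with r hr
      exact Real.smoothTransition.one_of_one_le
        ((one_le_div hb).2 (sub_le_sub_right (le_of_lt hr) _))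
    rw [this.deriv_eq, deriv_const]

theorem PB.bs {u : ι → En n → ℝ} (hu : ∀ i, ContDiffAt ℝ ∞ (u i) (x i))
    (hd : ∀ k < m, ∀ j, PB x s k (fun _ => 1) fun i y => s i * pderiv j (u i) y) {h : ℝ → ℝ}
    (hh : BS h) : PB x s m (fun _ => 1) fun i y => h (u i y) := by
  have h0 : ∀ {h : ℝ → ℝ}, BS h → PB0 x (fun _ => 1) fun i y => h (u i y) := fun {h} hh => by
    obtain ⟨C, hC⟩ := hh.2 0
    exact ⟨fun i => hh.1.contDiffAt.comp (x i) (hu i), |C|, abs_nonneg _, fun i => by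
      simpa using (hC _).trans (le_abs_self C)⟩
  induction m generalizing h with
  | zero => exact h0 hh
  | succ m ih =>
    refine ⟨h0 hh, fun j => ((ih (fun k hk => hd k (by omega)) hh.der).bmul
      (hd m (by omega) j)).congr fun i => ?_⟩
    filter_upwards [ev_diff (hu i)] with y hy
    have := ((hh.1.differentiable (by simp)) (u i y)).hasDerivAt.comp_hasFDerivAt y hy.hasFDerivAt
    have e : fderiv ℝ (fun y => h (u i y)) y = _ := this.fderiv
    simp only [pderiv, e, smul_apply, smul_eq_mul]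
    ring

/-- the coordinates -/
theorem PB.coord (hs : ∀ i, 0 < s i) {K : ℝ} (hx : ∀ i, ‖x i‖ ≤ K * s i) (j : Fin n) :
    PB x s m s fun _ y => y j := by
  have h0 : PB0 x s fun _ y => y j :=
    ⟨fun i => (EuclideanSpace.proj j : En n →L[ℝ] ℝ).contDiff.contDiffAt, |K|, abs_nonneg _,
      fun i => ((PiLp.norm_apply_le (x i) j).trans (hx i)).trans
        (mul_le_mul_of_nonneg_right (le_abs_self K) (hs i).le)⟩
  cases m with
  | zero => exact h0
  | succ m =>
    refine ⟨h0, fun k => (((PB.const ((1 : Matrix (Fin n) (Fin n) ℝ) j k)).imul s).wte fun i => by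
      rw [abs_of_pos (hs i), mul_one]).congr' fun i y => ?_⟩
    rw [← jc_eq_pd (Φ := fun z => z) differentiableAt_id, jc_id]

theorem pd_log_norm {y : En n} (hy : y ≠ 0) (j : Fin n) :
    pderiv j (fun z : En n => Real.log ‖z‖) y = y j * (∑ k, y k * y k)⁻¹ := by
  have e : (fun z : En n => Real.log ‖z‖) = fun z => (1 / 2 : ℝ) * Real.log (‖z‖ ^ 2) := by
    funext z; rw [Real.log_pow]; ring
  have h0 : ‖y‖ ^ 2 ≠ 0 := pow_ne_zero _ (norm_ne_zero_iff.2 hy)
  have h := ((hasStrictFDerivAt_norm_sq y).hasFDerivAt.log h0).const_mul (1 / 2 : ℝ)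
  have e2 : ∑ k, y k * y k = ‖y‖ ^ 2 := by
    rw [EuclideanSpace.real_norm_sq_eq]; simp only [sq]
  rw [pderiv, e, h.fderiv, e2]
  simp [EuclideanSpace.inner_single_right]
  ring

theorem cda_log_norm {y : En n} (hy : y ≠ 0) : ContDiffAt ℝ ∞ (fun z : En n => Real.log ‖z‖) y :=
  (contDiffAt_norm ℝ hy).log (norm_ne_zero_iff.2 hy)

/-- `h (σ log |y| + c)` at the scale `|y|` -/
theorem PB.bs_log (hx : ∀ i, x i ≠ 0) (σ : ℝ) (c : ι → ℝ) {h : ℝ → ℝ} (hh : BS h) :
    PB x (fun i => ‖x i‖) m (fun _ => 1) fun i y => h (σ * Real.log ‖y‖ + c i) := by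
  have hs : ∀ i, 0 < ‖x i‖ := fun i => norm_pos_iff.2 (hx i)
  refine PB.bs (fun i => (contDiffAt_const.mul (cda_log_norm (hx i))).add contDiffAt_const)
    (fun k _ j => ?_) hh
  have h1 : ∀ j, PB x (fun i => ‖x i‖) k (fun _ => 1) fun i y => ‖x i‖⁻¹ * y j := fun j =>
    ((PB.coord hs (K := 1) (fun i => by simp) j).imul fun i => ‖x i‖⁻¹).wte fun i => by
      rw [abs_of_pos (inv_pos.2 (hs i)), inv_mul_cancel₀ (hs i).ne']
  have h2 := (PB.sum Finset.univ fun a _ => (h1 a).bmul (h1 a)).inv one_pos fun i => by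
    have : ∑ a, ‖x i‖⁻¹ * x i a * (‖x i‖⁻¹ * x i a) = ‖x i‖⁻¹ ^ 2 * ‖x i‖ ^ 2 := by
      rw [EuclideanSpace.real_norm_sq_eq, Finset.mul_sum]
      exact Finset.sum_congr rfl fun a _ => by ring
    rw [this, ← mul_pow, inv_mul_cancel₀ (hs i).ne']
    simp
  refine (((h1 j).bmul h2).cmul σ).congr fun i => ?_
  filter_upwards [isOpen_ne.mem_nhds (hx i)] with y hy
  have hd : DifferentiableAt ℝ (fun z : En n => Real.log ‖z‖) y :=
    (cda_log_norm hy).differentiableAt (by simp)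
  have e : pderiv j (fun z : En n => σ * Real.log ‖z‖ + c i) y =
      σ * pderiv j (fun z : En n => Real.log ‖z‖) y := by
    simp only [pderiv, fderiv_add_const, fderiv_const_mul hd, smul_apply, smul_eq_mul]
  have e2 : ∑ a, ‖x i‖⁻¹ * y a * (‖x i‖⁻¹ * y a) = ‖x i‖⁻¹ ^ 2 * ∑ a, y a * y a := by
    rw [Finset.mul_sum]
    exact Finset.sum_congr rfl fun a _ => by ring
  rw [e, pd_log_norm hy, e2, mul_inv]
  have := (hs i).ne'
  field_simp

end Crest.Agent.N207.U

end
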