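import Crest.Agent.N207.Tens

/-!
# Row 207 (helper58): uniform pointwise jet bounds

`PB x s m φ f`: the germs `f i` at `x i` are smooth and their partial derivatives of order
`k ≤ m` at `x i` are at most `C * φ i / s i ^ k`, with `C` independent of `i`.
-/

set_option autoImplicit false
set_option linter.unusedSectionVars false

open Set Filter Topology
open scoped ContDiff BigOperators
open Crest.GeometryTopology.CoordMetric

noncomputable section

namespace Crest.Agent.N207.U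

variable {n : ℕ} {ι : Type*}

/-- order zero -/
def PB0 (x : ι → En n) (φ : ι → ℝ) (f : ι → En n → ℝ) : Prop :=
  (∀ i, ContDiffAt ℝ ∞ (f i) (x i)) ∧ ∃ C, 0 ≤ C ∧ ∀ i, |f i (x i)| ≤ C * φ i

/-- uniformly bounded jets of order `≤ m` at scale `s`, with weight `φ` -/
def PB (x : ι → En n) (s : ι → ℝ) : ℕ → (ι → ℝ) → (ι → En n → ℝ) → Prop
  | 0, φ, f => PB0 x φ f
  | m + 1, φ, f => PB0 x φ f ∧ ∀ j, PB x s m φ fun i y => s i * pderiv j (f i) y

variable {x : ι → En n} {s φ ψ : ι → ℝ} {m : ℕ} {f g : ι → En n → ℝ}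

theorem kle (k : ℕ) : (k : WithTop ℕ∞) ≤ ∞ := by exact_mod_cast le_top

theorem ev_diff {f : En n → ℝ} {x : En n} (h : ContDiffAt ℝ ∞ f x) :
    ∀ᶠ y in 𝓝 x, DifferentiableAt ℝ f y :=
  ((h.of_le (kle 1)).eventually (by simp)).mono fun _ hy => hy.differentiableAt (by simp)

theorem cda_pd {f : En n → ℝ} {x : En n} (h : ContDiffAt ℝ ∞ f x) (j : Fin n) :
    ContDiffAt ℝ ∞ (pderiv j f) x :=
  (h.fderiv_right (m := ∞) (by simp)).clm_apply contDiffAt_const

theorem ev_pd {f g : En n → ℝ} {x : En n} (h : f =ᶠ[𝓝 x] g) (j : Fin n) :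
    pderiv j f =ᶠ[𝓝 x] pderiv j g :=
  h.eventuallyEq_nhds.mono fun y hy => by simp only [pderiv, hy.fderiv_eq]

theorem PB.zero (h : PB x s m φ f) : PB0 x φ f := by
  cases m with
  | zero => exact h
  | succ m => exact h.1

theorem PB.sm (h : PB x s m φ f) (i : ι) : ContDiffAt ℝ ∞ (f i) (x i) := h.zero.1 i

theorem PB.val (h : PB x s m φ f) : ∃ C, 0 ≤ C ∧ ∀ i, |f i (x i)| ≤ C * φ i := h.zero.2

theorem PB.pred (h : PB x s (m + 1) φ f) : PB x s m φ f := by
  induction m generalizing f with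
  | zero => exact h.1
  | succ m ih => exact ⟨h.1, fun j => ih (h.2 j)⟩

theorem PB.of_le {k : ℕ} (h : PB x s m φ f) (hk : k ≤ m) : PB x s k φ f := by
  induction hk with
  | refl => exact h
  | step _ ih => exact ih h.pred

theorem PB0.congr (h : PB0 x φ f) (e : ∀ i, g i =ᶠ[𝓝 (x i)] f i) : PB0 x φ g :=
  ⟨fun i => (h.1 i).congr_of_eventuallyEq (e i),
    h.2.imp fun _ hC => ⟨hC.1, fun i => by rw [(e i).eq_of_nhds]; exact hC.2 i⟩⟩

theorem PB.congr (h : PB x s m φ f) (e : ∀ i, g i =ᶠ[𝓝 (x i)] f i) : PB x s m φ g := by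
  induction m generalizing f g with
  | zero => exact PB0.congr h e
  | succ m ih =>
    exact ⟨h.1.congr e, fun j => ih (h.2 j) fun i =>
      (ev_pd (e i) j).mono fun y hy => by simp only [hy]⟩

theorem PB.congr' (h : PB x s m φ f) (e : ∀ i y, g i y = f i y) : PB x s m φ g :=
  h.congr fun i => Eventually.of_forall (e i)

theorem PB0.wt (h : PB0 x φ f) {K : ℝ} (hK : 0 ≤ K) (e : ∀ i, φ i ≤ K * ψ i) : PB0 x ψ f := by
  obtain ⟨h1, C, hC, h2⟩ := h
  refine ⟨h1, C * K, by positivity, fun i => (h2 i).trans ?_⟩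
  rw [mul_assoc]
  exact mul_le_mul_of_nonneg_left (e i) hC

/-- change of the weight -/
theorem PB.wt (h : PB x s m φ f) {K : ℝ} (hK : 0 ≤ K) (e : ∀ i, φ i ≤ K * ψ i) :
    PB x s m ψ f := by
  induction m generalizing f with
  | zero => exact PB0.wt h hK e
  | succ m ih => exact ⟨h.1.wt hK e, fun j => ih (h.2 j)⟩

theorem PB.wt' (h : PB x s m φ f) (e : ∀ i, φ i ≤ ψ i) : PB x s m ψ f :=
  h.wt zero_le_one fun i => by simpa using e i

theorem PB.wte (h : PB x s m φ f) (e : ∀ i, φ i = ψ i) : PB x s m ψ f := h.wt' fun i => (e i).le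

/-- restriction to a subfamily -/
theorem PB.comap {κ : Type*} (h : PB x s m φ f) (e : κ → ι) :
    PB (fun k => x (e k)) (fun k => s (e k)) m (fun k => φ (e k)) fun k => f (e k) := by
  induction m generalizing f with
  | zero => exact ⟨fun k => h.1 _, h.2.imp fun C hC => ⟨hC.1, fun k => hC.2 _⟩⟩
  | succ m ih =>
    exact ⟨⟨fun k => h.1.1 _, h.1.2.imp fun C hC => ⟨hC.1, fun k => hC.2 _⟩⟩, fun j => ih (h.2 j)⟩

theorem PB.null' : PB x s m φ fun _ _ => 0 := by
  induction m with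
  | zero => exact ⟨fun _ => contDiffAt_const, 0, le_rfl, fun i => by simp⟩
  | succ m ih =>
    exact ⟨⟨fun _ => contDiffAt_const, 0, le_rfl, fun i => by simp⟩,
      fun j => ih.congr' fun i y => by simp [pderiv]⟩

/-- constants depending on the index -/
theorem PB.cst (c : ι → ℝ) : PB x s m (fun i => |c i|) fun i _ => c i := by
  have h0 : PB0 x (fun i => |c i|) fun i _ => c i :=
    ⟨fun _ => contDiffAt_const, 1, zero_le_one, fun i => by simp⟩
  cases m with
  | zero => exact h0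
  | succ m => exact ⟨h0, fun j => PB.null'.congr' fun i y => by simp [pderiv]⟩

theorem PB.const (c : ℝ) : PB x s m (fun _ => 1) fun _ _ => c :=
  (PB.cst fun _ => c).wt (abs_nonneg c) fun _ => by simp

theorem PB0.add (h : PB0 x φ f) (h' : PB0 x φ g) : PB0 x φ fun i y => f i y + g i y := by
  obtain ⟨h1, C, hC, h2⟩ := h
  obtain ⟨h3, D, hD, h4⟩ := h'
  refine ⟨fun i => (h1 i).add (h3 i), C + D, by positivity, fun i => ?_⟩
  rw [add_mul]
  exact (abs_add_le _ _).trans (add_le_add (h2 i) (h4 i))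

theorem PB.add (h : PB x s m φ f) (h' : PB x s m φ g) :
    PB x s m φ fun i y => f i y + g i y := by
  induction m generalizing f g with
  | zero => exact PB0.add h h'
  | succ m ih =>
    refine ⟨h.1.add h'.1, fun j => (ih (h.2 j) (h'.2 j)).congr fun i => ?_⟩
    filter_upwards [ev_diff (h.sm i), ev_diff (h'.sm i)] with y h1 h2
    simp only [pderiv, fderiv_fun_add h1 h2, add_apply, mul_add]

theorem PB0.mul (h : PB0 x φ f) (h' : PB0 x ψ g) :
    PB0 x (fun i => φ i * ψ i) fun i y => f i y * g i y := by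
  obtain ⟨h1, C, hC, h2⟩ := h
  obtain ⟨h3, D, hD, h4⟩ := h'
  refine ⟨fun i => (h1 i).mul (h3 i), C * D, by positivity, fun i => ?_⟩
  rw [abs_mul]
  exact (mul_le_mul (h2 i) (h4 i) (abs_nonneg _) ((abs_nonneg _).trans (h2 i))).trans_eq
    (by ring)

theorem PB.mul (h : PB x s m φ f) (h' : PB x s m ψ g) :
    PB x s m (fun i => φ i * ψ i) fun i y => f i y * g i y := by
  induction m generalizing f g with
  | zero => exact PB0.mul h h'
  | succ m ih =>
    refine ⟨h.1.mul h'.1, fun j =>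
      ((ih (h.2 j) h'.pred).add (ih h.pred (h'.2 j))).congr fun i => ?_⟩
    filter_upwards [ev_diff (h.sm i), ev_diff (h'.sm i)] with y h1 h2
    simp only [pderiv, fderiv_fun_mul h1 h2, add_apply,
      smul_apply, smul_eq_mul]
    ring

/-- product with a bounded factor on the left -/
theorem PB.bmul (h : PB x s m (fun _ => 1) f) (h' : PB x s m φ g) :
    PB x s m φ fun i y => f i y * g i y := (h.mul h').wte fun _ => one_mul _

/-- product with a bounded factor on the right -/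
theorem PB.mulb (h : PB x s m φ f) (h' : PB x s m (fun _ => 1) g) :
    PB x s m φ fun i y => f i y * g i y := (h.mul h').wte fun _ => mul_one _

theorem PB.cmul (c : ℝ) (h : PB x s m φ f) : PB x s m φ fun i y => c * f i y :=
  (PB.const c).bmul h

theorem PB.imul (c : ι → ℝ) (h : PB x s m φ f) :
    PB x s m (fun i => |c i| * φ i) fun i y => c i * f i y := (PB.cst c).mul h

theorem PB.neg (h : PB x s m φ f) : PB x s m φ fun i y => -f i y :=
  (h.cmul (-1)).congr' fun _ _ => by ring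

theorem PB.sub (h : PB x s m φ f) (h' : PB x s m φ g) :
    PB x s m φ fun i y => f i y - g i y := (h.add h'.neg).congr' fun _ _ => by ring

theorem PB.sum {κ : Type*} (t : Finset κ) {w : κ → ι → En n → ℝ}
    (h : ∀ a ∈ t, PB x s m φ (w a)) : PB x s m φ fun i y => ∑ a ∈ t, w a i y := by
  classical
  induction t using Finset.induction_on with
  | empty => simpa using PB.null'
  | insert a t ha ih =>
    exact ((h a (by simp)).add (ih fun b hb => h b (by simp [hb]))).congr' fun i y => by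
      rw [Finset.sum_insert ha]

theorem PB.prod {κ : Type*} (t : Finset κ) {w : κ → ι → En n → ℝ}
    (h : ∀ a ∈ t, PB x s m (fun _ => 1) (w a)) :
    PB x s m (fun _ => 1) fun i y => ∏ a ∈ t, w a i y := by
  classical
  induction t using Finset.induction_on with
  | empty => simpa using PB.const 1
  | insert a t ha ih =>
    exact ((h a (by simp)).bmul (ih fun b hb => h b (by simp [hb]))).congr' fun i y => by
      rw [Finset.prod_insert ha]

/-- a partial derivative costs a factor `1 / s` -/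
theorem PB.pd (hs : ∀ i, 0 < s i) (h : PB x s (m + 1) φ f) (j : Fin n) :
    PB x s m (fun i => φ i / s i) fun i => pderiv j (f i) :=
  (((h.2 j).imul fun i => (s i)⁻¹).wte fun i => by
    rw [abs_of_pos (inv_pos.2 (hs i))]; ring).congr' fun i y => by
      rw [← mul_assoc, inv_mul_cancel₀ (hs i).ne', one_mul]

theorem PB.of_pd (hs : ∀ i, 0 < s i) (h0 : PB x s 0 φ f)
    (h : ∀ j, PB x s m (fun i => φ i / s i) fun i => pderiv j (f i)) : PB x s (m + 1) φ f :=
  ⟨h0, fun j => ((h j).imul s).wte fun i => by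
    rw [abs_of_pos (hs i), mul_div_cancel₀ _ (hs i).ne']⟩

/-- the reciprocal -/
theorem PB.inv (h : PB x s m (fun _ => 1) f) {c : ℝ} (hc : 0 < c) (h0 : ∀ i, c ≤ |f i (x i)|) :
    PB x s m (fun _ => 1) fun i y => (f i y)⁻¹ := by
  have hne : ∀ i, f i (x i) ≠ 0 := fun i e => by
    have := h0 i
    rw [e, abs_zero] at this
    exact absurd hc (not_lt.2 this)
  have hz : PB0 x (fun _ => 1) fun i y => (f i y)⁻¹ :=
    ⟨fun i => (h.sm i).inv (hne i), c⁻¹, by positivity, fun i => by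
      rw [abs_inv, mul_one]; exact inv_anti₀ hc (h0 i)⟩
  induction m with
  | zero => exact hz
  | succ m ih =>
    refine ⟨hz, fun j =>
      (((ih h.pred).bmul (ih h.pred)).bmul (h.2 j)).neg.congr fun i => ?_⟩
    filter_upwards [ev_diff (h.sm i), (h.sm i).continuousAt.eventually_ne (hne i)] with y h1 h2
    have := (hasDerivAt_inv h2).comp_hasFDerivAt y h1.hasFDerivAt
    have e : fderiv ℝ (fun y => (f i y)⁻¹) y = _ := this.fderiv
    simp only [pderiv, e, smul_apply, smul_eq_mul]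
    field_simp

/-! ### comparison with `iteratedFDeriv` -/

theorem norm_itd_pd_le {f : En n → ℝ} {x : En n} (hf : ContDiffAt ℝ ∞ f x) (j : Fin n) (k : ℕ) :
    ‖iteratedFDeriv ℝ k (pderiv j f) x‖ ≤ ‖iteratedFDeriv ℝ (k + 1) f x‖ := by
  rw [← norm_iteratedFDeriv_fderiv]
  have hc : ContDiffAt ℝ k (fderiv ℝ f) x :=
    (hf.fderiv_right (m := ∞) (by simp)).of_le (kle k)
  have := (ContinuousLinearMap.apply ℝ ℝ
    (EuclideanSpace.single j (1 : ℝ) : En n)).norm_iteratedFDeriv_comp_left hc le_rfl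
  refine le_trans (le_of_eq rfl) (this.trans (mul_le_of_le_one_left (norm_nonneg _) ?_))
  refine ContinuousLinearMap.opNorm_le_bound _ zero_le_one fun L => ?_
  simpa using L.le_opNorm (EuclideanSpace.single j (1 : ℝ))

theorem fderiv_eq_sum (f : En n → ℝ) (x v : En n) :
    fderiv ℝ f x v = ∑ j, v j * pderiv j f x := by
  conv_lhs => rw [show v = ∑ j, v j • EuclideanSpace.single j (1 : ℝ) from by
    ext k; simp [Pi.single_apply]]
  simp [pderiv, map_sum]

theorem norm_itd_succ_le {f : En n → ℝ} {x : En n} (hf : ContDiffAt ℝ ∞ f x) (m : ℕ) :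
    ‖iteratedFDeriv ℝ (m + 1) f x‖ ≤ ∑ k, ‖iteratedFDeriv ℝ m (pderiv k f) x‖ := by
  rw [← norm_iteratedFDeriv_fderiv]
  set P : Fin n → ℝ →L[ℝ] (En n →L[ℝ] ℝ) := fun k =>
    ContinuousLinearMap.toSpanSingleton ℝ (EuclideanSpace.proj k : En n →L[ℝ] ℝ) with hP
  have e : fderiv ℝ f = fun y => ∑ k, (P k ∘ pderiv k f) y := by
    funext y
    ext v
    rw [fderiv_eq_sum]
    simp [hP, mul_comm]
  have hc : ∀ k, ContDiffAt ℝ m (pderiv k f) x := fun k => (cda_pd hf k).of_le (kle m)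
  rw [e, iteratedFDeriv_fun_sum_apply (fun k _ => (P k).contDiff.contDiffAt.comp x (hc k))]
  refine (norm_sum_le _ _).trans (Finset.sum_le_sum fun k _ => ?_)
  refine ((P k).norm_iteratedFDeriv_comp_left (hc k) le_rfl).trans ?_
  refine mul_le_of_le_one_left (norm_nonneg _) ?_
  rw [hP, ContinuousLinearMap.norm_toSpanSingleton]
  refine ContinuousLinearMap.opNorm_le_bound _ zero_le_one fun v => ?_
  simpa using PiLp.norm_apply_le v k

theorem norm_itd_cmul {f : En n → ℝ} {x : En n} (hf : ContDiffAt ℝ ∞ f x) (c : ℝ) (k : ℕ) :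
    ‖iteratedFDeriv ℝ k (fun y => c * f y) x‖ = |c| * ‖iteratedFDeriv ℝ k f x‖ := by
  have : iteratedFDeriv ℝ k (fun y => c * f y) x = c • iteratedFDeriv ℝ k f x :=
    iteratedFDeriv_const_smul_apply' (a := c) (hf.of_le (kle k))
  rw [this, norm_smul, Real.norm_eq_abs]

/-- from `iteratedFDeriv` bounds to `PB` -/
theorem PB.of_itd (hs : ∀ i, 0 < s i) (hf : ∀ i, ContDiffAt ℝ ∞ (f i) (x i))
    (h : ∀ k ≤ m, ∃ C, 0 ≤ C ∧ ∀ i, ‖iteratedFDeriv ℝ k (f i) (x i)‖ * s i ^ k ≤ C * φ i) :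
    PB x s m φ f := by
  have h0 : ∀ {f : ι → En n → ℝ}, (∀ i, ContDiffAt ℝ ∞ (f i) (x i)) →
      (∃ C, 0 ≤ C ∧ ∀ i, ‖iteratedFDeriv ℝ 0 (f i) (x i)‖ * s i ^ 0 ≤ C * φ i) → PB0 x φ f :=
    fun hf h => ⟨hf, h.imp fun C hC => ⟨hC.1, fun i => by
      simpa [norm_iteratedFDeriv_zero] using hC.2 i⟩⟩
  induction m generalizing f with
  | zero => exact h0 hf (h 0 le_rfl)
  | succ m ih =>
    refine ⟨h0 hf (h 0 (Nat.zero_le _)), fun j => ih
      (fun i => contDiffAt_const.mul (cda_pd (hf i) j)) fun k hk => ?_⟩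
    obtain ⟨C, hC, h1⟩ := h (k + 1) (by omega)
    refine ⟨C, hC, fun i => le_trans ?_ (h1 i)⟩
    rw [norm_itd_cmul (cda_pd (hf i) j), abs_of_pos (hs i), pow_succ]
    have := norm_itd_pd_le (hf i) j k
    have h2 := hs i
    calc s i * ‖iteratedFDeriv ℝ k (pderiv j (f i)) (x i)‖ * s i ^ k
        ≤ s i * ‖iteratedFDeriv ℝ (k + 1) (f i) (x i)‖ * s i ^ k := by gcongr
      _ = _ := by ring

theorem PB.itd_top (hs : ∀ i, 0 < s i) (h : PB x s m φ f) :
    ∃ C, 0 ≤ C ∧ ∀ i, ‖iteratedFDeriv ℝ m (f i) (x i)‖ * s i ^ m ≤ C * φ i := by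
  induction m generalizing f with
  | zero => simpa [norm_iteratedFDeriv_zero] using h.val
  | succ m ih =>
    choose C hC0 hC using fun j => ih (h.2 j)
    refine ⟨∑ j, C j, Finset.sum_nonneg fun j _ => hC0 j, fun i => ?_⟩
    have h2 := hs i
    refine (mul_le_mul_of_nonneg_right (norm_itd_succ_le (h.sm i) m) (by positivity)).trans ?_
    rw [Finset.sum_mul, Finset.sum_mul]
    refine Finset.sum_le_sum fun j _ => le_trans (le_of_eq ?_) (hC j i)
    rw [norm_itd_cmul (cda_pd (h.sm i) j), abs_of_pos h2]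
    ring

/-- from `PB` to `iteratedFDeriv` bounds -/
theorem PB.itd (hs : ∀ i, 0 < s i) (hφ : ∀ i, 0 ≤ φ i) (h : PB x s m φ f) :
    ∃ C, 0 ≤ C ∧ ∀ k ≤ m, ∀ i, ‖iteratedFDeriv ℝ k (f i) (x i)‖ * s i ^ k ≤ C * φ i := by
  choose C hC0 hC using fun j : Fin (m + 1) => (h.of_le (Nat.lt_succ_iff.1 j.2)).itd_top hs
  refine ⟨∑ j, C j, Finset.sum_nonneg fun j _ => hC0 j, fun k hk i => ?_⟩
  exact (hC ⟨k, Nat.lt_succ_iff.2 hk⟩ i).trans (mul_le_mul_of_nonneg_right
    (Finset.single_le_sum (f := C) (fun j _ => hC0 j) (Finset.mem_univ _)) (hφ i))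

end Crest.Agent.N207.U

end
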