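import Crest.Agent.N207.U.JG
import Crest.Agent.N207.NP.St
import Crest.Agent.N207.T.Defs
import Crest.Agent.N207.AI.Par2

/-!
# Row 207 (helper58): the leaves `NP.CURV` and `T.CURV`
-/

set_option autoImplicit false
set_option linter.unusedSectionVars false

open Set Filter Topology
open scoped ContDiff BigOperators Manifold
open Crest.GeometryTopology.CoordMetric Crest.GeometryTopology.ChartCurvature
  Crest.GeometryTopology.MetricFamily

noncomputable section

namespace Crest.Agent.N207.U

open Sk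

theorem npCurv : NP.CURV := by
  obtain ⟨C, hC, h⟩ := curv_jg 0
  refine ⟨C, 1 / 8, hC, by norm_num, fun G U x s ε a b c d e => (h G U x s ε a b c d e 0 le_rfl).1,
    fun k Cs => ?_⟩
  obtain ⟨D, -, h2⟩ := curv_lin k Cs 2
  refine ⟨D * 2, fun G U x s a b c d e => ?_⟩
  have := (h2 G U x s 2 a b c zero_le_two le_rfl d (fun j _ => e j) k le_rfl).2
  rw [le_div_iff₀ (by positivity)] at this
  linarith

theorem tCurv (M : Type*) [TopologicalSpace M] [ChartedSpace E4 M] [IsManifold 𝓘(ℝ, E4) ∞ M] :
    T.CURV M := by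
  obtain ⟨C, hC, h⟩ := curv_jg 0
  refine ⟨C ^ 2, by positivity, fun g Ψ U x r δ hP hx hr h0 hδ hJ => ?_⟩
  have h1 := (h _ U x r δ (hP.riem g) hx hr (by linarith) hJ 0 le_rfl).1
  rw [← hP.par_rm g 0 hx, Real.sqrt_le_left (by positivity)] at h1
  exact h1.trans_eq (by ring)

end Crest.Agent.N207.U

end
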