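import Crest.Agent.N207.U.Met
import Crest.Agent.N207.Sk.Defs

/-!
# Row 207 (helper58): geometry from the jet bounds `Sk.JG`, `Sk.JAll`
-/

set_option autoImplicit false
set_option linter.unusedSectionVars false

open Set Filter Topology
open scoped ContDiff BigOperators
open Crest.GeometryTopology.CoordMetric Crest.GeometryTopology.ChartCurvature
  Crest.GeometryTopology.MetricFamily

noncomputable section

namespace Crest.Agent.N207.U

open Sk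

theorem jg_abs {m : ℕ} {G : MetricField 4} {x : E4} {s c : ℝ} (h : JG m G x s c) (a b : Fin 4) :
    |G x a b - (1 : Matrix (Fin 4) (Fin 4) ℝ) a b| ≤ c := by
  simpa [J1, norm_iteratedFDeriv_zero, Sk.dv] using h 0 (Nat.zero_le _) a b

theorem jg_nonneg {m : ℕ} {G : MetricField 4} {x : E4} {s c : ℝ} (h : JG m G x s c) : 0 ≤ c :=
  (abs_nonneg _).trans (jg_abs h 0 0)

theorem jg_mono {m l : ℕ} {G : MetricField 4} {x : E4} {s c c' : ℝ} (h : JG m G x s c)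
    (hl : l ≤ m) (hc : c ≤ c') : JG l G x s c' :=
  fun k hk a b => le_trans (h k (hk.trans hl) a b) hc

theorem jg_inv {m : ℕ} {G : MetricField 4} {U : Set E4} {x : E4} {s c : ℝ}
    (hG : IsRiemannianOn G U) (hx : x ∈ U) (h : JG m G x s c) (hc : c ≤ 1 / 8) (a b : Fin 4) :
    |(G x)⁻¹ a b| ≤ 2 :=
  abs_inv_le (hG.posDef x hx).det_pos.ne'.isUnit (ε := c) (by push_cast; linarith) (jg_abs h) a b

/-- a family of metrics with jet bounds -/
theorem MW.of_jg {ι : Type*} {x : ι → E4} {s w : ι → ℝ} {G : ι → MetricField 4} {m : ℕ}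
    (hG : ∀ i, ∃ U, IsRiemannianOn (G i) U ∧ x i ∈ U) (hs : ∀ i, 0 < s i) (hw : ∀ i, 0 ≤ w i)
    {K : ℝ} (hK : ∀ i, w i ≤ K) (h0 : ∀ i, JG 0 (G i) (x i) (s i) (1 / 8)) (Cs : ℕ → ℝ)
    (h : ∀ i, ∀ k ≤ m, ∀ a b, J1 k (Sk.dv (G i) a b) (x i) (s i) (Cs k * w i)) :
    MW x s m w G := by
  refine ⟨hG, hs, ⟨2, zero_le_two, fun i a b => ?_⟩, hw,
    ⟨|K|, abs_nonneg K, fun i => (hK i).trans (le_abs_self K)⟩, fun a b => PB.of_itd hs
      (fun i => ?_) fun k hk => ⟨|Cs k|, abs_nonneg _, fun i => (h i k hk a b).trans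
        (mul_le_mul_of_nonneg_right (le_abs_self _) (hw i))⟩⟩
  · obtain ⟨U, hU, hx⟩ := hG i
    exact jg_inv hU hx (h0 i) le_rfl a b
  · obtain ⟨U, hU, hx⟩ := hG i
    exact ((hU.contDiffOn a b).contDiffAt (hU.isOpen.mem_nhds hx)).sub contDiffAt_const

/-- the data of one metric germ with jet bounds -/
structure Dat (m : ℕ) (Cs : ℕ → ℝ) (K : ℝ) where
  G : MetricField 4
  U : Set E4
  x : E4
  s : ℝ
  w : ℝ
  riem : IsRiemannianOn G U
  mem : x ∈ U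
  pos : 0 < s
  nn : 0 ≤ w
  le : w ≤ K
  small : JG 0 G x s (1 / 8)
  jets : ∀ k ≤ m, ∀ a b, J1 k (Sk.dv G a b) x s (Cs k * w)

theorem Dat.mw (m : ℕ) (Cs : ℕ → ℝ) (K : ℝ) :
    MW (fun d : Dat m Cs K => d.x) (fun d => d.s) m (fun d => d.w) fun d => d.G :=
  MW.of_jg (fun d => ⟨d.U, d.riem, d.mem⟩) (fun d => d.pos) (fun d => d.nn) (fun d => d.le)
    (fun d => d.small) Cs fun d => d.jets

theorem unif {ι κ : Type*} [Finite κ] {P : κ → ι → ℝ → Prop}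
    (hm : ∀ a i C D, C ≤ D → P a i C → P a i D) (h : ∀ a, ∃ C, ∀ i, P a i C) :
    ∃ C, 0 < C ∧ ∀ a i, P a i C := by
  choose C hC using h
  obtain ⟨D, hD⟩ := (Set.finite_range C).bddAbove
  exact ⟨max D 1, lt_max_of_lt_right one_pos, fun a i =>
    hm a i _ _ ((hD ⟨a, rfl⟩).trans (le_max_left _ _)) (hC a i)⟩

/-- covariant derivatives of the curvature, LINEAR in the weight `w` -/
theorem curv_lin (m : ℕ) (Cs : ℕ → ℝ) (K : ℝ) : ∃ C : ℝ, 0 < C ∧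
    ∀ (G : MetricField 4) (U : Set E4) (x : E4) (s w : ℝ), IsRiemannianOn G U → x ∈ U → 0 < s →
      0 ≤ w → w ≤ K → JG 0 G x s (1 / 8) →
      (∀ k ≤ m + 2, ∀ a b, J1 k (Sk.dv G a b) x s (Cs k * w)) → ∀ k ≤ m,
        √(nsq G (covN G (rmT G) k) x) ≤ C * w / s ^ (k + 2) ∧
        √(nsq G (covN G (ricT G) k) x) ≤ C * w / s ^ (k + 2) := by
  have h := Dat.mw (m + 2) Cs K
  obtain ⟨C, hC, h1⟩ := unif (κ := Fin (m + 1)) (ι := Dat (m + 2) Cs K)
    (P := fun k d C => √(nsq d.G (covN d.G (rmT d.G) k) d.x) ≤ C * d.w / d.s ^ (k.1 + 2) ∧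
      √(nsq d.G (covN d.G (ricT d.G) k) d.x) ≤ C * d.w / d.s ^ (k.1 + 2))
    (fun k d C D hCD hP => by
      have := d.pos
      have := d.nn
      exact ⟨hP.1.trans (by gcongr), hP.2.trans (by gcongr)⟩)
    fun k => by
      have hk := k.2
      have h2 := h.of_le (l := 0 + k + 2) (by omega)
      have hψ : ∀ d : Dat (m + 2) Cs K, 0 ≤ d.w / d.s ^ 2 / d.s ^ k.1 := fun d => by
        have := d.pos
        have := d.nn
        positivity
      obtain ⟨C1, hC1, h3⟩ := h.sqrt_nsq_le (MW.covN k h2.pred.pred h2.rmT) hψ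
      obtain ⟨C2, hC2, h4⟩ := h.sqrt_nsq_le (MW.covN k h2.pred.pred h2.ricT) hψ
      refine ⟨C1 + C2, fun d => ?_⟩
      have e : (C1 + C2) * d.w / d.s ^ (k.1 + 2) = (C1 + C2) * (d.w / d.s ^ 2 / d.s ^ k.1) := by
        ring
      rw [e]
      exact ⟨(h3 d).trans (mul_le_mul_of_nonneg_right (by linarith) (hψ d)),
        (h4 d).trans (mul_le_mul_of_nonneg_right (by linarith) (hψ d))⟩
  exact ⟨C, hC, fun G U x s w a b c d e f g k hk =>
    h1 ⟨k, Nat.lt_succ_iff.2 hk⟩ ⟨G, U, x, s, w, a, b, c, d, e, f, g⟩⟩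

/-- the same under `JG` -/
theorem curv_jg (m : ℕ) : ∃ C : ℝ, 0 < C ∧
    ∀ (G : MetricField 4) (U : Set E4) (x : E4) (s ε : ℝ), IsRiemannianOn G U → x ∈ U → 0 < s →
      ε ≤ 1 / 8 → JG (m + 2) G x s ε → ∀ k ≤ m,
        √(nsq G (covN G (rmT G) k) x) ≤ C * ε / s ^ (k + 2) ∧
        √(nsq G (covN G (ricT G) k) x) ≤ C * ε / s ^ (k + 2) := by
  obtain ⟨C, hC, h⟩ := curv_lin m (fun _ => 1) (1 / 8)
  exact ⟨C, hC, fun G U x s ε a b c d e => h G U x s ε a b c (jg_nonneg e) d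
    (jg_mono e (Nat.zero_le _) d) fun k hk i j => by simpa using e k hk i j⟩

/-- jets of the inverse metric and of the Christoffel symbols, LINEAR in the weight -/
theorem chr_lin (m : ℕ) (Cs : ℕ → ℝ) (K : ℝ) : ∃ C : ℝ, 0 < C ∧
    ∀ (G : MetricField 4) (U : Set E4) (x : E4) (s w : ℝ), IsRiemannianOn G U → x ∈ U → 0 < s →
      0 ≤ w → w ≤ K → JG 0 G x s (1 / 8) →
      (∀ k ≤ m + 1, ∀ a b, J1 k (Sk.dv G a b) x s (Cs k * w)) →
        (∀ k ≤ m + 1, ∀ a b,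
          J1 k (fun y => (G y)⁻¹ a b - (1 : Matrix (Fin 4) (Fin 4) ℝ) a b) x s (C * w)) ∧
        ∀ k ≤ m, ∀ a b c, J1 k (fun y => christoffel G y a b c) x s (C * w / s) := by
  have h := Dat.mw (m + 1) Cs K
  obtain ⟨C, hC, h1⟩ := unif (κ := Fin 4 × Fin 4 × Fin 4) (ι := Dat (m + 1) Cs K)
    (P := fun p d C => (∀ k ≤ m + 1, J1 k (fun y => (d.G y)⁻¹ p.1 p.2.1 -
      (1 : Matrix (Fin 4) (Fin 4) ℝ) p.1 p.2.1) d.x d.s (C * d.w)) ∧
      ∀ k ≤ m, J1 k (fun y => christoffel d.G y p.1 p.2.1 p.2.2) d.x d.s (C * d.w / d.s))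
    (fun p d C D hCD hP => by
      have := d.pos
      have := d.nn
      exact ⟨fun k hk => le_trans (hP.1 k hk) (by gcongr),
        fun k hk => le_trans (hP.2 k hk) (by gcongr)⟩)
    fun p => by
      have hψ : ∀ d : Dat (m + 1) Cs K, 0 ≤ d.w / d.s := fun d => div_nonneg d.nn d.pos.le
      obtain ⟨C1, hC1, h3⟩ := (h.ginv_sub p.1 p.2.1).itd h.pos h.nn
      obtain ⟨C2, hC2, h4⟩ := (h.chr p.1 p.2.1 p.2.2).itd h.pos hψ
      refine ⟨C1 + C2, fun d => ⟨fun k hk => (h3 k hk d).trans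
        (mul_le_mul_of_nonneg_right (by linarith) d.nn), fun k hk => (h4 k hk d).trans ?_⟩⟩
      rw [mul_div_assoc]
      exact mul_le_mul_of_nonneg_right (by linarith) (hψ d)
  refine ⟨C, hC, fun G U x s w a b c d e f g => ⟨fun k hk i j => ?_, fun k hk i j l => ?_⟩⟩
  · exact (h1 (i, j, i) ⟨G, U, x, s, w, a, b, c, d, e, f, g⟩).1 k hk
  · exact (h1 (i, j, l) ⟨G, U, x, s, w, a, b, c, d, e, f, g⟩).2 k hk

end Crest.Agent.N207.U

end
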